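import Vale.Agent.P068R.Step

/-!
The transfinite recursion of length continuum.
-/

namespace Vale.Agent.P068R

open Set
open Vale.Agent.P068 (Tiny tiny_mono tiny_insert tiny_iUnion)

universe u

/-- The seed generator together with everything constructed before. -/
def joinSt {κ : Type u} (f : κ → St) : St :=
  ⟨insert (univ, 0) (⋃ k, (f k).hi), ⋃ k, (f k).G, insert ∅ (⋃ k, (f k).E)⟩

theorem joinSt_good {κ : Type u} [LinearOrder κ] (f : κ → St)
    (hI : ∀ k, ∃ c, Inv c (f k))
    (hm : ∀ i j, i < j → Ext (f i) (f j)) :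
    Good (joinSt f) ∧ ∀ k, Ext (f k) (joinSt f) := by
  have hle : ∀ i j, i ≤ j → Ext (f i) (f j) := by
    intro i j h
    rcases h.lt_or_eq with h | h
    · exact hm i j h
    · exact h ▸ ext_refl _
  -- smallness in the join is witnessed at a stage
  have wit : ∀ A, Sm (joinSt f) A → A.Finite ∨ ∃ l, Sm (f l) A := by
    rintro A ⟨u, hu, hf⟩
    rcases hu with rfl | hu
    · exact Or.inl (by simpa using hf)
    · obtain ⟨l, hl⟩ := mem_iUnion.1 hu
      exact Or.inr ⟨l, u, hl, hf⟩
  have hext : ∀ k, Ext (f k) (joinSt f) := by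
    intro k
    refine ⟨fun p hp => Or.inr (mem_iUnion.2 ⟨k, hp⟩), fun g hg => mem_iUnion.2 ⟨k, hg⟩,
      fun u hu => Or.inr (mem_iUnion.2 ⟨k, hu⟩), ?_, ?_⟩
    · intro q hq hqk p hp
      rcases hq with rfl | hq
      · exact (hqk (hI k).choose_spec.seed).elim
      · obtain ⟨l, hl⟩ := mem_iUnion.1 hq
        rcases le_or_gt l k with h | h
        · exact (hqk ((hle l k h).hi hl)).elim
        · exact (hm k l h).rank q hl hqk p hp
    · intro q hq g hg x hx hs
      rcases wit _ hs with h | ⟨l, h⟩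
      · exact sm_of_finite (hI k).choose_spec.toGood h
      · rcases le_or_gt l k with hl | hl
        · exact sm_ext (hle l k hl) h
        · exact (hm k l hl).pres q hq g hg x hx h
  -- finitely many objects live at a common stage
  have hcons : ∀ p ∈ (joinSt f).hi, ∀ q ∈ (joinSt f).hi, ¬ Sm (joinSt f) (p.1 ∩ q.1) := by
    intro p hp q hq hs
    have up : ∀ p ∈ (joinSt f).hi, p = (univ, 0) ∨ ∃ i, ∀ j, i ≤ j → p ∈ (f j).hi := by
      rintro p (rfl | hp)
      · exact Or.inl rfl
      · obtain ⟨i, hi⟩ := mem_iUnion.1 hp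
        exact Or.inr ⟨i, fun j hj => (hle i j hj).hi hi⟩
    have key : ∀ i, p ∈ (f i).hi → q ∈ (f i).hi → False := by
      intro i hpi hqi
      rcases wit _ hs with h | ⟨l, h⟩
      · exact (hI i).choose_spec.cons p hpi q hqi (sm_of_finite (hI i).choose_spec.toGood h)
      · exact (hI (max i l)).choose_spec.cons p ((hle i _ (le_max_left i l)).hi hpi) q
          ((hle i _ (le_max_left i l)).hi hqi) (sm_ext (hle l _ (le_max_right i l)) h)
    rcases up p hp with rfl | ⟨i, hi⟩ <;> rcases up q hq with rfl | ⟨j, hj⟩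
    · rcases wit _ hs with h | ⟨l, h⟩
      · simp [infinite_univ.not_finite] at h
      · exact key l (hI l).choose_spec.seed (hI l).choose_spec.seed
    · exact key j (hI j).choose_spec.seed (hj j le_rfl)
    · exact key i (hi i le_rfl) (hI i).choose_spec.seed
    · exact key (max i j) (hi _ (le_max_left i j)) (hj _ (le_max_right i j))
  refine ⟨?_, hext⟩
  exact {
    seed := Or.inl rfl
    empty := Or.inl rfl
    union := by
      rintro u (rfl | hu) v (rfl | hv)
      · exact Or.inl (empty_union _)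
      · rw [empty_union]; exact Or.inr hv
      · rw [union_empty]; exact Or.inr hu
      · obtain ⟨i, hi⟩ := mem_iUnion.1 hu
        obtain ⟨j, hj⟩ := mem_iUnion.1 hv
        exact Or.inr (mem_iUnion.2 ⟨max i j, (hI (max i j)).choose_spec.union u
          ((hle i _ (le_max_left i j)).small hi) v ((hle j _ (le_max_right i j)).small hj)⟩)
    cons := hcons
    anti := by
      intro g hg g' hg' hfin
      obtain ⟨i, hi⟩ := mem_iUnion.1 hg
      obtain ⟨j, hj⟩ := mem_iUnion.1 hg'
      exact (hI (max i j)).choose_spec.anti g ((hle i _ (le_max_left i j)).gen hi) g'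
        ((hle j _ (le_max_right i j)).gen hj) hfin
    adm := by
      intro g hg
      obtain ⟨i, hi⟩ := mem_iUnion.1 hg
      exact adm_ext (hext i) hi ((hI i).choose_spec.adm g hi) }

/-- The interval `P ⊆ Q` is solved and the inflow part of `P` has a side. -/
def Solved (s : St) (T : Set W × Set W) : Prop :=
  (T.1 ⊆ T.2 → Goal s T.1 T.2) ∧ (High s (sI T.1) ∨ High s (sI T.1)ᶜ)

theorem exists_all (hr : Reap) {ι : Type} [LinearOrder ι] [WellFoundedLT ι]
    (hsmall : ∀ a : ι, Cardinal.mk (Set.Iio a) < Cardinal.continuum) (T : ι → Set W × Set W)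
    (hT : Function.Surjective T) :
    ∃ s : St, Good s ∧ (∀ P Q, P ⊆ Q → Goal s P Q) ∧
      ∀ x : Set ℕ, High s x ∨ High s xᶜ := by
  classical
  let K : ι → Cardinal.{0} := fun a => max Cardinal.aleph0 (Cardinal.mk (Set.Iio a))
  have hK : ∀ a, K a < Cardinal.continuum := fun a =>
    max_lt Cardinal.aleph0_lt_continuum (hsmall a)
  have hKm : ∀ a b, b ≤ a → K b ≤ K a := fun a b h =>
    max_le_max le_rfl (Cardinal.mk_le_mk_of_subset (Iio_subset_Iio h))
  let step : ι → St → St := fun a u =>
    if h : ∃ t, Inv (K a) t ∧ Ext u t ∧ Solved t (T a) then h.choose else u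
  let f : ι → St :=
    wellFounded_lt.fix (fun a prev => step a (joinSt fun b : Iio a => prev b.1 b.2))
  have hf : ∀ a, f a = step a (joinSt fun b : Iio a => f b.1) := fun a =>
    WellFounded.fix_eq _ _ a
  have key : ∀ a, Inv (K a) (f a) ∧ (∀ b, b < a → Ext (f b) (f a)) ∧ Solved (f a) (T a) := by
    intro a
    refine wellFounded_lt.induction
      (C := fun a => Inv (K a) (f a) ∧ (∀ b, b < a → Ext (f b) (f a)) ∧ Solved (f a) (T a))
      a (fun a ih => ?_)
    obtain ⟨hgood, hext⟩ := joinSt_good (fun b : Iio a => f b.1)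
      (fun b => ⟨_, (ih b.1 b.2).1⟩) (fun i j hij => (ih j.1 j.2).2.1 i.1 hij)
    have hJ : Cardinal.mk (Iio a) ≤ K a := le_max_right _ _
    have hinv : Inv (K a) (joinSt fun b : Iio a => f b.1) :=
      { hgood with
        inf := le_max_left _ _
        lt := hK a
        ctbHi := tiny_insert (le_max_left _ _) (tiny_iUnion (le_max_left _ _) hJ _
          fun b => tiny_mono (hKm a b.1 b.2.le) (ih b.1 b.2).1.ctbHi) _
        ctbG := tiny_iUnion (le_max_left _ _) hJ _
          fun b => tiny_mono (hKm a b.1 b.2.le) (ih b.1 b.2).1.ctbG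
        ctbE := tiny_insert (le_max_left _ _) (tiny_iUnion (le_max_left _ _) hJ _
          fun b => tiny_mono (hKm a b.1 b.2.le) (ih b.1 b.2).1.ctbE) _ }
    have hex : ∃ t, Inv (K a) t ∧ Ext (joinSt fun b : Iio a => f b.1) t ∧ Solved t (T a) := by
      obtain ⟨t, h1, h2, h3, h4⟩ := solve hr hinv (T a).1 (T a).2
      exact ⟨t, h1, h2, h3, h4⟩
    have e : f a = hex.choose := by
      rw [hf a]
      exact dif_pos hex
    rw [e]
    exact ⟨hex.choose_spec.1, fun b hb => ext_trans (hext ⟨b, hb⟩) hex.choose_spec.2.1,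
      hex.choose_spec.2.2⟩
  obtain ⟨hgood, hext⟩ := joinSt_good f (fun a => ⟨_, (key a).1⟩)
    (fun i j h => (key j).2.1 i h)
  refine ⟨joinSt f, hgood, fun P Q hPQ => ?_, fun x => ?_⟩
  · obtain ⟨a, ha⟩ := hT (P, Q)
    have h := (key a).2.2.1
    rw [ha] at h
    exact goal_ext (hext a) (h hPQ)
  · obtain ⟨a, ha⟩ := hT (mk2 x ∅, univ)
    have h := (key a).2.2.2
    rw [ha, sI_mk2] at h
    exact h.imp (high_ext (hext a)) (high_ext (hext a))

/-- If fewer than continuum many infinite sets are always split by one set, there is a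
final state. -/
theorem exists_final (hr : Reap) :
    ∃ s : St, Good s ∧ (∀ P Q, P ⊆ Q → Goal s P Q) ∧
      ∀ x : Set ℕ, High s x ∨ High s xᶜ := by
  let ι := (Cardinal.continuum : Cardinal.{0}).ord.ToType
  have hι : Cardinal.mk ι = Cardinal.continuum := Cardinal.mk_ord_toType _
  have hW : Cardinal.mk W = Cardinal.aleph0 := Cardinal.mk_eq_aleph0 W
  have hT : Cardinal.mk (Set W × Set W) = Cardinal.mk ι := by
    rw [Cardinal.mk_prod, Cardinal.lift_id, Cardinal.mk_set, hW, Cardinal.two_power_aleph0,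
      Cardinal.continuum_mul_self, hι]
  obtain ⟨e⟩ := Cardinal.eq.1 hT.symm
  exact exists_all hr (fun a => Cardinal.mk_Iio_toType_ord_lt a) e e.surjective

end Vale.Agent.P068R
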