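import Vale.Agent.P068.Category

/-!
Splitting sets, available when every family of fewer than continuum many infinite sets of
natural numbers is split by one set.
-/

namespace Vale.Agent.P068R

open Set
open scoped Cardinal
open Vale.Agent.P068 (Cov Tiny tiny_mono tiny_image tiny_union tiny_iUnion exists_split cov_of_ch)

universe u v w

/-- The reaping number is the continuum. -/
def Reap : Prop :=
  ∀ S : Set (Set ℕ), #S < 𝔠 → (∀ A ∈ S, A.Infinite) →
    ∃ c : Set ℕ, ∀ A ∈ S, (A ∩ c).Infinite ∧ (A \ c).Infinite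

theorem reap_of_cov (h : Cov) : Reap := by
  intro S hS hinf
  obtain ⟨c, hc⟩ := exists_split h hS S
    ⟨S, Subtype.val, le_rfl, fun x hx => ⟨⟨x, hx⟩, rfl⟩⟩
  exact ⟨c, fun A hA => (hc A hA).1 (hinf A hA)⟩

theorem reap_of_ch (h : Cardinal.continuum.{0} = Cardinal.aleph 1) : Reap :=
  reap_of_cov (cov_of_ch h)

theorem exists_split' (hr : Reap) {k : Cardinal.{0}} (hk : k < 𝔠) (S : Set (Set ℕ))
    (h : Tiny k S) :
    ∃ c : Set ℕ, ∀ A ∈ S, A.Infinite → (A ∩ c).Infinite ∧ (A \ c).Infinite := by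
  obtain ⟨I, f, hI, hf⟩ := h
  obtain ⟨c, hc⟩ := hr {A | A ∈ S ∧ A.Infinite}
    (((Cardinal.mk_le_mk_of_subset (fun A hA => hf hA.1)).trans
      (Cardinal.mk_range_le.trans hI)).trans_lt hk) (fun A hA => hA.2)
  exact ⟨c, fun A hA hi => hc A ⟨hA, hi⟩⟩

theorem tiny_image2 {α : Type u} {β : Type v} {γ : Type w} {k : Cardinal.{0}}
    (hk : ℵ₀ ≤ k) (op : α → β → γ) {A : Set α} {B : Set β} (hA : Tiny k A) (hB : Tiny k B) :
    Tiny k (image2 op A B) := by
  obtain ⟨I, f, hI, hf⟩ := hA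
  obtain ⟨J, g, hJ, hg⟩ := tiny_iUnion hk hI (fun i => op (f i) '' B) (fun i => tiny_image _ hB)
  refine ⟨J, g, hJ, ?_⟩
  rintro x ⟨a, ha, b, hb, rfl⟩
  obtain ⟨i, rfl⟩ := hf ha
  exact hg (mem_iUnion.2 ⟨i, b, hb, rfl⟩)

end Vale.Agent.P068R
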