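import Vale.Agent.P068R.State

/-!
One step of the recursion: a base is provided for an arbitrary interval.
-/

namespace Vale.Agent.P068R

open Set
open Vale.Agent.P068 (Tiny tiny_mono tiny_image tiny_union tiny_singleton tiny_insert tiny_iUnion)

/-- What the recursion must achieve for an interval `P ⊆ Q`. -/
def Goal (s : St) (P Q : Set W) : Prop :=
  (∃ b, IsB s.G b ∧ b ⊆ P) ∨ (∃ b, IsB s.G b ∧ Q ⊆ b) ∨ (∃ b, IsB s.G b ∧ P ⊆ b ∧ b ⊆ Q)

theorem goal_ext {s t : St} (h : Ext s t) {P Q : Set W} (hg : Goal s P Q) : Goal t P Q := by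
  have hB : ∀ b, IsB s.G b → IsB t.G b := fun b ⟨g, hg, hb⟩ => ⟨g, h.gen hg, hb⟩
  rcases hg with ⟨b, h1, h2⟩ | ⟨b, h1, h2⟩ | ⟨b, h1, h2⟩
  exacts [Or.inl ⟨b, hB b h1, h2⟩, Or.inr (Or.inl ⟨b, hB b h1, h2⟩),
    Or.inr (Or.inr ⟨b, hB b h1, h2⟩)]

/-- The two conditions left once the trivial cases are excluded. -/
def Hyp (s : St) (P Q : Set W) : Prop :=
  ∀ g ∈ s.G, (g \ P).Infinite ∧ (Q \ g).Infinite

/-- The dual state. -/
def dual (s : St) : St := ⟨s.hi, compl '' s.G, s.E⟩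

theorem dual_dual (s : St) : dual (dual s) = s := by
  simp [dual, image_image]

theorem adm_dual {s : St} {b : Set W} (h : Adm s b) : Adm (dual s) bᶜ := by
  rcases h with h | h
  · refine Or.inr ?_
    simp only [sI_compl, sO_compl, compl_compl]
    exact h
  · refine Or.inl ?_
    simp only [sI_compl, sO_compl, compl_compl]
    exact h

theorem inv_dual {κ : Cardinal.{0}} {s : St} (h : Inv κ s) : Inv κ (dual s) where
  seed := h.seed
  empty := h.empty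
  union := h.union
  cons := h.cons
  anti := by
    rintro _ ⟨g, hg, rfl⟩ _ ⟨g', hg', rfl⟩ hfin
    rw [compl_sdiff_compl] at hfin
    rw [h.anti g' hg' g hg hfin]
  adm := by
    rintro _ ⟨g, hg, rfl⟩
    exact adm_dual (h.adm g hg)
  inf := h.inf
  lt := h.lt
  ctbHi := h.ctbHi
  ctbG := tiny_image _ h.ctbG
  ctbE := h.ctbE

theorem ext_dual {s t : St} (h : Ext s t) : Ext (dual s) (dual t) :=
  ⟨h.hi, image_mono h.gen, h.small, h.rank, by
    rintro q hq _ ⟨g, hg, rfl⟩ x hx hs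
    refine h.pres q hq g hg x ?_ hs
    simpa [or_comm] using hx⟩

theorem isB_dual {s : St} {b : Set W} (h : IsB s.G b) : IsB (dual s).G bᶜ := by
  obtain ⟨g, hg, hb⟩ := h
  exact ⟨gᶜ, ⟨g, hg, rfl⟩, bal_compl hb⟩

theorem goal_dual {s : St} {P Q : Set W} (h : Goal s P Q) : Goal (dual s) Qᶜ Pᶜ := by
  rcases h with ⟨b, h1, h2⟩ | ⟨b, h1, h2⟩ | ⟨b, h1, h2, h3⟩
  exacts [Or.inr (Or.inl ⟨bᶜ, isB_dual h1, compl_subset_compl.2 h2⟩),
    Or.inl ⟨bᶜ, isB_dual h1, compl_subset_compl.2 h2⟩,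
    Or.inr (Or.inr ⟨bᶜ, isB_dual h1, compl_subset_compl.2 h3, compl_subset_compl.2 h2⟩)]

theorem exists_above {α : Type} {k : Cardinal.{0}} {S : Set (α × Ordinal.{0})} (h : Tiny k S) :
    ∃ r, ∀ p ∈ S, p.2 < r := by
  obtain ⟨I, f, -, hf⟩ := h
  refine ⟨Order.succ (⨆ i : I, (f i).2), fun p hp => Order.lt_succ_iff.2 ?_⟩
  obtain ⟨i, rfl⟩ := hf hp
  exact Ordinal.le_iSup (fun i : I => (f i).2) i

/-- Add a fresh high generator. -/
theorem add_high {s : St} {κ : Cardinal.{0}} (hs : Inv κ s) {x : Set ℕ} (h1 : ¬ High s x) (h2 : ¬ High s xᶜ) :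
    ∃ r, (∀ p ∈ s.hi, p.2 < r) ∧ Inv κ ⟨insert (x, r) s.hi, s.G, s.E⟩ ∧
      Ext s ⟨insert (x, r) s.hi, s.G, s.E⟩ := by
  obtain ⟨r, hr⟩ := exists_above hs.ctbHi
  have hext : Ext s ⟨insert (x, r) s.hi, s.G, s.E⟩ := by
    refine ⟨subset_insert _ _, subset_rfl, subset_rfl, fun q hq hqs p hp => ?_,
      fun _ _ _ _ _ _ h => h⟩
    rcases hq with rfl | hq
    · exact hr p hp
    · exact (hqs hq).elim
  have hnew : ∀ p ∈ s.hi, ¬ Sm s (p.1 ∩ x) := by
    intro p hp hsp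
    exact h2 ⟨p, hp, by rwa [sdiff_eq, compl_compl]⟩
  have hxx : ¬ Sm s x := fun hsp =>
    h2 ⟨_, hs.seed, by rwa [sdiff_eq, compl_compl, univ_inter]⟩
  refine ⟨r, hr, ?_, hext⟩
  exact {
    seed := Or.inr hs.seed
    empty := hs.empty
    union := hs.union
    cons := by
      rintro p (rfl | hp) q (rfl | hq)
      · rw [inter_self]; exact hxx
      · rw [inter_comm]; exact hnew q hq
      · exact hnew p hp
      · exact hs.cons p hp q hq
    anti := hs.anti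
    adm := fun g hg => adm_ext hext hg (hs.adm g hg)
    inf := hs.inf
    lt := hs.lt
    ctbHi := tiny_insert hs.inf hs.ctbHi _
    ctbG := hs.ctbG
    ctbE := hs.ctbE }

/-- Add a base generator. -/
theorem add_gen {s : St} {κ : Cardinal.{0}} (hs : Inv κ s) {b : Set W} (ha : Adm s b)
    (hb : ∀ g ∈ s.G, (g \ b).Infinite ∧ (b \ g).Infinite) :
    Inv κ ⟨s.hi, insert b s.G, s.E⟩ ∧ Ext s ⟨s.hi, insert b s.G, s.E⟩ := by
  have hext : Ext s ⟨s.hi, insert b s.G, s.E⟩ :=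
    ⟨subset_rfl, subset_insert _ _, subset_rfl, fun q hq hqs => (hqs hq).elim,
      fun _ _ _ _ _ _ h => h⟩
  refine ⟨?_, hext⟩
  exact {
    seed := hs.seed
    empty := hs.empty
    union := hs.union
    cons := hs.cons
    anti := by
      rintro g (rfl | hg) g' (rfl | hg') hfin
      · rfl
      · exact ((hb g' hg').2 hfin).elim
      · exact ((hb g hg).1 hfin).elim
      · exact hs.anti g hg g' hg' hfin
    adm := by
      rintro g (rfl | hg)
      · exact ha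
      · exact adm_ext hext hg (hs.adm g hg)
    inf := hs.inf
    lt := hs.lt
    ctbHi := hs.ctbHi
    ctbG := tiny_insert hs.inf hs.ctbG _
    ctbE := hs.ctbE }

/-- Declare a new small set that splits given sets and keeps given sets large. -/
theorem grow (hr : Reap) {s : St} {κ : Cardinal.{0}} (hs : Inv κ s) {X F : Set (Set ℕ)}
    (hX : Tiny κ X) (hF : Tiny κ F) :
    ∃ (e : Set ℕ) (t : St), Inv κ t ∧ Ext s t ∧ t.hi = s.hi ∧ t.G = s.G ∧ Sm t e ∧
      (∀ A ∈ X, A.Infinite → (A ∩ e).Infinite ∧ (A \ e).Infinite) ∧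
      ∀ A ∈ F, Sm t A → Sm s A := by
  let K : Set (Set ℕ) :=
    image2 (fun q x => q.1 \ x) s.hi (sI '' s.G ∪ (fun g => (sI g)ᶜ) '' s.G) ∪
      image2 (fun p q => p.1 ∩ q.1) s.hi s.hi ∪ F
  have hK : Tiny κ K := tiny_union hs.inf (tiny_union hs.inf
    (tiny_image2 hs.inf _ hs.ctbHi
      (tiny_union hs.inf (tiny_image _ hs.ctbG) (tiny_image _ hs.ctbG)))
    (tiny_image2 hs.inf _ hs.ctbHi hs.ctbHi)) hF
  obtain ⟨e, he⟩ := exists_split' hr hs.lt (X ∪ image2 (fun A u => A \ u) K s.E)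
    (tiny_union hs.inf hX (tiny_image2 hs.inf _ hK hs.ctbE))
  set t : St := ⟨s.hi, s.G, s.E ∪ (fun u => u ∪ e) '' s.E⟩ with ht
  have keep : ∀ A ∈ K, Sm t A → Sm s A := by
    rintro A hA ⟨u, hu | ⟨u, hu, rfl⟩, hf⟩
    · exact ⟨u, hu, hf⟩
    · refine ⟨u, hu, not_infinite.1 fun hi => ?_⟩
      refine ((he _ (Or.inr ⟨A, hA, u, hu, rfl⟩)) hi).2 ?_
      rwa [sdiff_sdiff]
  have hext : Ext s t := by
    refine ⟨subset_rfl, subset_rfl, subset_union_left, fun q hq hqs => (hqs hq).elim,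
      fun q hq g hg x hx => keep _ (Or.inl (Or.inl ⟨q, hq, x, ?_, rfl⟩))⟩
    rcases hx with rfl | rfl
    exacts [Or.inl ⟨g, hg, rfl⟩, Or.inr ⟨g, hg, rfl⟩]
  refine ⟨e, t, ?_, hext, rfl, rfl, ⟨∅ ∪ e, Or.inr ⟨∅, hs.empty, rfl⟩, by simp⟩,
    fun A hA => he A (Or.inl hA), fun A hA => keep A (Or.inr hA)⟩
  exact {
    seed := hs.seed
    empty := Or.inl hs.empty
    union := by
      rintro u (hu | ⟨u, hu, rfl⟩) v (hv | ⟨v, hv, rfl⟩)
      · exact Or.inl (hs.union u hu v hv)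
      · exact Or.inr ⟨u ∪ v, hs.union u hu v hv, union_assoc u v e⟩
      · exact Or.inr ⟨u ∪ v, hs.union u hu v hv, union_right_comm u v e⟩
      · exact Or.inr ⟨u ∪ v, hs.union u hu v hv, union_union_distrib_right u v e⟩
    cons := fun p hp q hq h => hs.cons p hp q hq
      (keep _ (Or.inl (Or.inr ⟨p, hp, q, hq, rfl⟩)) h)
    anti := hs.anti
    adm := fun g hg => adm_ext hext hg (hs.adm g hg)
    inf := hs.inf
    lt := hs.lt
    ctbHi := hs.ctbHi
    ctbG := hs.ctbG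
    ctbE := tiny_union hs.inf hs.ctbE (tiny_image _ hs.ctbE) }

/-- Give a side to `y` while keeping `A` not high. -/
theorem label {s : St} {κ : Cardinal.{0}} (hs : Inv κ s) (y A : Set ℕ) (hA : ¬ High s A) :
    ∃ t, Inv κ t ∧ Ext s t ∧ t.G = s.G ∧ (High t y ∨ High t yᶜ) ∧ ¬ High t A := by
  by_cases h : High s y ∨ High s yᶜ
  · exact ⟨s, hs, ext_refl s, rfl, h, hA⟩
  simp only [not_or] at h
  obtain ⟨h1, h2⟩ := h
  by_cases hy : Sm s (y \ A)
  · obtain ⟨r, _, hinv, hext⟩ := add_high hs h2 (by rwa [compl_compl])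
    refine ⟨_, hinv, hext, rfl, Or.inr ⟨(yᶜ, r), Or.inl rfl, ⟨∅, hs.empty, by simp⟩⟩, ?_⟩
    rintro ⟨p, rfl | hp, hp'⟩
    · refine hA ⟨_, hs.seed, sm_of_subset_union hs.toGood ?_ hy hp'⟩
      intro n hn
      by_cases hny : n ∈ y
      · exact Or.inl ⟨hny, hn.2⟩
      · exact Or.inr ⟨hny, hn.2⟩
    · exact hA ⟨p, hp, hp'⟩
  · obtain ⟨r, _, hinv, hext⟩ := add_high hs h1 h2
    refine ⟨_, hinv, hext, rfl, Or.inl ⟨(y, r), Or.inl rfl, ⟨∅, hs.empty, by simp⟩⟩, ?_⟩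
    rintro ⟨p, rfl | hp, hp'⟩
    · exact hy hp'
    · exact hA ⟨p, hp, hp'⟩

theorem incomparable {s : St} {P Q : Set W} (hPQ : P ⊆ Q) (hh : Hyp s P Q) {c e : Set ℕ}
    (hc : ∀ g ∈ s.G, (((sI Q \ sI P) ∩ sI g).Infinite → (((sI Q \ sI P) ∩ sI g) \ c).Infinite) ∧
      (((sI Q \ sI P) \ sI g).Infinite → (((sI Q \ sI P) \ sI g) ∩ c).Infinite))
    (he : ∀ g ∈ s.G, (((sO Q \ sO P) ∩ sO g).Infinite → (((sO Q \ sO P) ∩ sO g) \ e).Infinite) ∧
      (((sO Q \ sO P) \ sO g).Infinite → (((sO Q \ sO P) \ sO g) ∩ e).Infinite)) :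
    ∀ g ∈ s.G, (g \ mk2 (sI P ∪ (c ∩ (sI Q \ sI P))) (sO P ∪ (e ∩ (sO Q \ sO P)))).Infinite ∧
      (mk2 (sI P ∪ (c ∩ (sI Q \ sI P))) (sO P ∪ (e ∩ (sO Q \ sO P))) \ g).Infinite := by
  intro g hg
  obtain ⟨hI, hO⟩ := subset_iff_coords.1 hPQ
  obtain ⟨hgP, hQg⟩ := hh g hg
  have main : ∀ x z u c : Set ℕ, x ⊆ z →
      (((z \ x) ∩ u).Infinite → (((z \ x) ∩ u) \ c).Infinite) →
      (((z \ x) \ u).Infinite → (((z \ x) \ u) ∩ c).Infinite) →
      ((u \ x).Infinite → (u \ (x ∪ (c ∩ (z \ x)))).Infinite) ∧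
      ((z \ u).Infinite → ((x ∪ (c ∩ (z \ x))) \ u).Infinite) := by
    intro x z u c hxz h1 h2
    constructor
    · intro h
      have e : u \ x = (u \ z) ∪ ((z \ x) ∩ u) := by
        ext n; have := @hxz n; simp only [mem_sdiff, mem_union, mem_inter_iff]; tauto
      rw [e, infinite_union] at h
      rcases h with h | h
      · refine h.mono ?_
        intro n; have := @hxz n; simp only [mem_sdiff, mem_union, mem_inter_iff]; tauto
      · refine (h1 h).mono ?_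
        intro n; simp only [mem_sdiff, mem_union, mem_inter_iff]; tauto
    · intro h
      have e : z \ u = (x \ u) ∪ ((z \ x) \ u) := by
        ext n; have := @hxz n; simp only [mem_sdiff, mem_union]; tauto
      rw [e, infinite_union] at h
      rcases h with h | h
      · refine h.mono ?_
        intro n; simp only [mem_sdiff, mem_union, mem_inter_iff]; tauto
      · refine (h2 h).mono ?_
        intro n; simp only [mem_sdiff, mem_union, mem_inter_iff]; tauto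
  obtain ⟨mI1, mI2⟩ := main (sI P) (sI Q) (sI g) c hI (hc g hg).1 (hc g hg).2
  obtain ⟨mO1, mO2⟩ := main (sO P) (sO Q) (sO g) e hO (he g hg).1 (he g hg).2
  constructor
  · intro hf
    obtain ⟨f1, f2⟩ := finite_iff_coords.1 hf
    change (sI g \ sI (mk2 _ _)).Finite at f1
    change (sO g \ sO (mk2 _ _)).Finite at f2
    rw [sI_mk2] at f1
    rw [sO_mk2] at f2
    have h := mt finite_iff_coords.2 hgP
    rw [not_and_or] at h
    rcases h with h | h
    exacts [mI1 h f1, mO1 h f2]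
  · intro hf
    obtain ⟨f1, f2⟩ := finite_iff_coords.1 hf
    change (sI (mk2 _ _) \ sI g).Finite at f1
    change (sO (mk2 _ _) \ sO g).Finite at f2
    rw [sI_mk2] at f1
    rw [sO_mk2] at f2
    have h := mt finite_iff_coords.2 hQg
    rw [not_and_or] at h
    rcases h with h | h
    exacts [mI2 h f1, mO2 h f2]

theorem between_of_add {s : St} {κ : Cardinal.{0}} (hs : Inv κ s) {P Q b : Set W} (ha : Adm s b) (hPb : P ⊆ b)
    (hbQ : b ⊆ Q) (hb : ∀ g ∈ s.G, (g \ b).Infinite ∧ (b \ g).Infinite) :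
    ∃ t, Inv κ t ∧ Ext s t ∧ ∃ b', IsB t.G b' ∧ P ⊆ b' ∧ b' ⊆ Q :=
  ⟨_, (add_gen hs ha hb).1, (add_gen hs ha hb).2, b, ⟨b, Or.inl rfl, bal_refl b⟩, hPb, hbQ⟩

theorem mk2_between {P Q : Set W} (hPQ : P ⊆ Q) (c e : Set ℕ) :
    P ⊆ mk2 (sI P ∪ (c ∩ (sI Q \ sI P))) (sO P ∪ (e ∩ (sO Q \ sO P))) ∧
    mk2 (sI P ∪ (c ∩ (sI Q \ sI P))) (sO P ∪ (e ∩ (sO Q \ sO P))) ⊆ Q := by
  obtain ⟨hI, hO⟩ := subset_iff_coords.1 hPQ
  refine ⟨subset_iff_coords.2 ⟨?_, ?_⟩, subset_iff_coords.2 ⟨?_, ?_⟩⟩ <;>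
    simp only [sI_mk2, sO_mk2]
  exacts [subset_union_left, subset_union_left,
    union_subset hI (inter_subset_right.trans sdiff_subset),
    union_subset hO (inter_subset_right.trans sdiff_subset)]

/-- A base between `P` and `Q` with a fresh inflow end. -/
theorem fresh (hr : Reap) {s₀ : St} {κ : Cardinal.{0}} (hs₀ : Inv κ s₀) {P Q : Set W}
    (hPQ : P ⊆ Q) (hh₀ : Hyp s₀ P Q)
    (hx₀ : ¬ High s₀ (sI P)) (hz₀ : ¬ High s₀ (sI Q)ᶜ)
    (hy₀ : High s₀ (sO P) ∨ High s₀ (sO P)ᶜ) :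
    ∃ t, Inv κ t ∧ Ext s₀ t ∧ ∃ b, IsB t.G b ∧ P ⊆ b ∧ b ⊆ Q := by
  obtain ⟨hI, hO⟩ := subset_iff_coords.1 hPQ
  set D := sI Q \ sI P with hD
  set D' := sO Q \ sO P with hD'
  obtain ⟨e, s, hs, hext₀, hhi, hG, hesp, he, hF⟩ := grow hr hs₀
    (X := (fun g => D' ∩ sO g) '' s₀.G ∪ (fun g => D' \ sO g) '' s₀.G)
    (F := (fun q => q.1 \ sI P) '' s₀.hi ∪ (fun q => q.1 \ (sI Q)ᶜ) '' s₀.hi)
    (tiny_union hs₀.inf (tiny_image _ hs₀.ctbG) (tiny_image _ hs₀.ctbG))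
    (tiny_union hs₀.inf (tiny_image _ hs₀.ctbHi) (tiny_image _ hs₀.ctbHi))
  have hh : Hyp s P Q := fun g hg => hh₀ g (hG ▸ hg)
  have hx : ¬ High s (sI P) := fun ⟨q, hq, hq'⟩ =>
    hx₀ ⟨q, hhi ▸ hq, hF _ (Or.inl ⟨q, hhi ▸ hq, rfl⟩) hq'⟩
  have hz : ¬ High s (sI Q)ᶜ := fun ⟨q, hq, hq'⟩ =>
    hz₀ ⟨q, hhi ▸ hq, hF _ (Or.inr ⟨q, hhi ▸ hq, rfl⟩) hq'⟩
  have hy := hy₀.imp (high_ext hext₀) (high_ext hext₀)
  suffices hres : ∃ t, Inv κ t ∧ Ext s t ∧ ∃ b, IsB t.G b ∧ P ⊆ b ∧ b ⊆ Q by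
    obtain ⟨t, ht, hext, hb⟩ := hres
    exact ⟨t, ht, ext_trans hext₀ hext, hb⟩
  obtain ⟨c, hc⟩ := exists_split' hr hs.lt
    (((fun g => D ∩ sI g) '' s.G ∪ (fun g => D \ sI g) '' s.G) ∪
      image2 (fun q u => (q.1 ∩ D) \ u) s.hi s.E)
    (tiny_union hs.inf (tiny_union hs.inf (tiny_image _ hs.ctbG) (tiny_image _ hs.ctbG))
      (tiny_image2 hs.inf _ hs.ctbHi hs.ctbE))
  have hpos : ∀ q ∈ s.hi, ¬ Sm s (q.1 ∩ D) →
      ¬ Sm s (q.1 ∩ D ∩ c) ∧ ¬ Sm s ((q.1 ∩ D) \ c) := by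
    intro q hq hn
    constructor <;> rintro ⟨u, hu, hf⟩ <;>
      have hi : ((q.1 ∩ D) \ u).Infinite := (fun h => hn ⟨u, hu, h⟩)
    · refine (hc _ (Or.inr ⟨q, hq, u, hu, rfl⟩) hi).1 (hf.subset ?_)
      intro n; simp only [mem_sdiff, mem_inter_iff]; tauto
    · refine (hc _ (Or.inr ⟨q, hq, u, hu, rfl⟩) hi).2 (hf.subset ?_)
      intro n; simp only [mem_sdiff, mem_inter_iff]; tauto
  have hinc := incomparable hPQ hh (c := c) (e := e)
    (fun g hg => ⟨fun h => (hc _ (Or.inl (Or.inl ⟨g, hg, rfl⟩)) h).2,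
      fun h => (hc _ (Or.inl (Or.inr ⟨g, hg, rfl⟩)) h).1⟩)
    (fun g hg => ⟨fun h => (he _ (Or.inl ⟨g, hG ▸ hg, rfl⟩) h).2,
      fun h => (he _ (Or.inr ⟨g, hG ▸ hg, rfl⟩) h).1⟩)
  set S := sI P ∪ (c ∩ D) with hS
  have hS1 : ¬ High s S := by
    rintro ⟨q, hq, hq'⟩
    by_cases hsp : Sm s (q.1 ∩ D)
    · refine hx ⟨q, hq, sm_of_subset_union hs.toGood ?_ hq' hsp⟩
      intro n; simp only [hS, mem_sdiff, mem_union, mem_inter_iff]; tauto
    · refine (hpos q hq hsp).2 (sm_mono ?_ hq')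
      intro n; simp only [hS, hD, mem_sdiff, mem_union, mem_inter_iff]; tauto
  have hS2 : ¬ High s Sᶜ := by
    rintro ⟨q, hq, hq'⟩
    by_cases hsp : Sm s (q.1 ∩ D)
    · refine hz ⟨q, hq, sm_of_subset_union hs.toGood ?_ hq' hsp⟩
      intro n; simp only [hS, hD, mem_sdiff, mem_union, mem_inter_iff, mem_compl_iff]; tauto
    · refine (hpos q hq hsp).1 (sm_mono ?_ hq')
      intro n; simp only [hS, mem_sdiff, mem_union, mem_inter_iff, mem_compl_iff]; tauto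
  set T := sO P ∪ (e ∩ D') with hT
  have hb := mk2_between hPQ c e
  rcases hy with hy | hy
  · obtain ⟨r, hr, hinv, hext⟩ := add_high hs hS2 (by rwa [compl_compl])
    obtain ⟨p, hp, hp'⟩ := hy
    have ha : Adm ⟨insert (Sᶜ, r) s.hi, s.G, s.E⟩ (mk2 S T) := by
      refine Or.inr ?_
      rw [sI_mk2, sO_mk2]
      refine ⟨⟨(Sᶜ, r), Or.inl rfl, ⟨∅, hs.empty, by simp⟩⟩, p, Or.inr hp, sm_mono ?_ hp', ?_⟩
      · exact sdiff_subset_sdiff_right subset_union_left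
      · rintro q (rfl | hq) hq'
        · exact hr p hp
        · exact (hS2 ⟨q, hq, hq'⟩).elim
    obtain ⟨t, ht, hext', hres⟩ := between_of_add hinv ha hb.1 hb.2 hinc
    exact ⟨t, ht, ext_trans hext hext', hres⟩
  · obtain ⟨r, hr, hinv, hext⟩ := add_high hs hS1 hS2
    obtain ⟨p, hp, hp'⟩ := hy
    have ha : Adm ⟨insert (S, r) s.hi, s.G, s.E⟩ (mk2 S T) := by
      refine Or.inl ?_
      rw [sI_mk2, sO_mk2]
      refine ⟨⟨(S, r), Or.inl rfl, ⟨∅, hs.empty, by simp⟩⟩, p, Or.inr hp,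
        sm_of_subset_union hs.toGood ?_ hp' hesp, ?_⟩
      · intro n; simp only [hT, mem_sdiff, mem_union, mem_inter_iff, mem_compl_iff]; tauto
      · rintro q (rfl | hq) hq'
        · exact hr p hp
        · exact (hS1 ⟨q, hq, hq'⟩).elim
    obtain ⟨t, ht, hext', hres⟩ := between_of_add hinv ha hb.1 hb.2 hinc
    exact ⟨t, ht, ext_trans hext hext', hres⟩

/-- A base between `P` and `Q` with the same sides and ranks as `P`. -/
theorem sparse_add (hr : Reap) {s₀ : St} {κ : Cardinal.{0}} (hs₀ : Inv κ s₀) {P Q : Set W}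
    (hPQ : P ⊆ Q) (hh₀ : Hyp s₀ P Q) (ha₀ : AdmH s₀ (sI P) (sO P)ᶜ) :
    ∃ t, Inv κ t ∧ Ext s₀ t ∧ ∃ b, IsB t.G b ∧ P ⊆ b ∧ b ⊆ Q := by
  set D := sI Q \ sI P with hD
  set D' := sO Q \ sO P with hD'
  obtain ⟨e, s, hs, hext₀, hhi, hG, hesp, he, hF⟩ := grow hr hs₀
    (X := ((fun g => D ∩ sI g) '' s₀.G ∪ (fun g => D \ sI g) '' s₀.G) ∪
      ((fun g => D' ∩ sO g) '' s₀.G ∪ (fun g => D' \ sO g) '' s₀.G))
    (F := (fun q => q.1 \ sI P) '' s₀.hi)
    (tiny_union hs₀.inf (tiny_union hs₀.inf (tiny_image _ hs₀.ctbG) (tiny_image _ hs₀.ctbG))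
      (tiny_union hs₀.inf (tiny_image _ hs₀.ctbG) (tiny_image _ hs₀.ctbG)))
    (tiny_image _ hs₀.ctbHi)
  have hh : Hyp s P Q := fun g hg => hh₀ g (hG ▸ hg)
  have ha : AdmH s (sI P) (sO P)ᶜ :=
    admH_ext hext₀ (fun q hq => hF _ ⟨q, hq, rfl⟩) ha₀
  have hinc := incomparable hPQ hh (c := e) (e := e)
    (fun g hg => ⟨fun h => (he _ (Or.inl (Or.inl ⟨g, hG ▸ hg, rfl⟩)) h).2,
      fun h => (he _ (Or.inl (Or.inr ⟨g, hG ▸ hg, rfl⟩)) h).1⟩)
    (fun g hg => ⟨fun h => (he _ (Or.inr (Or.inl ⟨g, hG ▸ hg, rfl⟩)) h).2,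
      fun h => (he _ (Or.inr (Or.inr ⟨g, hG ▸ hg, rfl⟩)) h).1⟩)
  have hb := mk2_between hPQ e e
  obtain ⟨t, ht, hext, hres⟩ := between_of_add hs (Or.inl (show AdmH s _ _ by
    rw [sI_mk2, sO_mk2]
    refine admH_congr hs.toGood (sm_mono ?_ (sm_empty hs.toGood)) (sm_mono ?_ hesp)
      (sm_mono ?_ hesp) ha
    all_goals intro n; simp only [mem_sdiff, mem_union, mem_inter_iff, mem_compl_iff]; tauto))
    hb.1 hb.2 hinc
  exact ⟨t, ht, ext_trans hext₀ hext, hres⟩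

/-- The case in which the inflow part of `P` is not low. -/
theorem case_not_low (hr : Reap) {s : St} {κ : Cardinal.{0}} (hs : Inv κ s) {P Q : Set W} (hPQ : P ⊆ Q) (hh : Hyp s P Q)
    (hx : ¬ High s (sI P)ᶜ) : ∃ t, Inv κ t ∧ Ext s t ∧ Goal t P Q := by
  by_cases hg : ∃ g ∈ s.G, (P \ g).Finite
  · obtain ⟨g, hg, hfin⟩ := hg
    obtain ⟨f1, f2⟩ := finite_iff_coords.1 hfin
    have hA : AdmH s (sI g) (sO g)ᶜ := by
      refine (hs.adm g hg).resolve_right (fun h => hx ?_)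
      refine high_mono hs.toGood ?_ h.1
      rw [compl_sdiff_compl]
      exact sm_of_finite hs.toGood f1
    obtain ⟨_, p, hp, hp', hq⟩ := hA
    have hyc : Sm s (p.1 \ (sO P)ᶜ) := by
      refine sm_of_subset_union hs.toGood ?_ hp' (sm_of_finite hs.toGood f2)
      intro n hn
      by_cases hng : n ∈ sO g
      · exact Or.inl ⟨hn.1, not_not_intro hng⟩
      · exact Or.inr ⟨not_not.1 hn.2, hng⟩
    by_cases hxh : High s (sI P)
    · have ha : AdmH s (sI P) (sO P)ᶜ := by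
        refine ⟨hxh, p, hp, hyc, fun q hq1 hq2 => hq q hq1 (sm_of_subset_union hs.toGood ?_ hq2
          (sm_of_finite hs.toGood f1))⟩
        intro n hn
        by_cases hnP : n ∈ sI P
        · exact Or.inr ⟨hnP, hn.2⟩
        · exact Or.inl ⟨hn.1, hnP⟩
      obtain ⟨t, ht, hext, hres⟩ := sparse_add hr hs hPQ hh ha
      exact ⟨t, ht, hext, Or.inr (Or.inr hres)⟩
    · obtain ⟨t, ht, hext, hres⟩ := fresh hr hs hPQ hh hxh
        (fun h => hx (high_of_subset (compl_subset_compl.2 (subset_iff_coords.1 hPQ).1) h))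
        (Or.inr ⟨p, hp, hyc⟩)
      exact ⟨t, ht, hext, Or.inr (Or.inr hres)⟩
  · simp only [not_exists, not_and] at hg
    obtain ⟨t1, ht1, he1, hG1, hlab, hA⟩ := label hs (sO P) (sI P)ᶜ hx
    have hsub : mk2 ∅ (sO P) ⊆ P := subset_iff_coords.2 (by simp)
    have hh1 : Hyp t1 (mk2 ∅ (sO P)) P := by
      intro g hg1
      rw [hG1] at hg1
      exact ⟨(hh g hg1).1.mono (sdiff_subset_sdiff_right hsub), hg g hg1⟩
    obtain ⟨t, ht, hext, b, hb, _, hbP⟩ := fresh hr ht1 hsub hh1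
      (by rw [sI_mk2]; exact not_high_empty ht1.toGood) hA (by rw [sO_mk2]; exact hlab)
    exact ⟨t, ht, ext_trans he1 hext, Or.inl ⟨b, hb, hbP⟩⟩

/-- Balanced interpolation inside the class of a set `g`. -/
theorem interp {g P Q : Set W} (hPQ : P ⊆ Q) (hP : (P \ g).Finite) (hQ : (g \ Q).Finite)
    (h1 : (g \ P).Infinite ∨ (P \ g).ncard ≤ (g \ P).ncard)
    (h2 : (Q \ g).Infinite ∨ (g \ Q).ncard ≤ (Q \ g).ncard) :
    ∃ b, Bal b g ∧ P ⊆ b ∧ b ⊆ Q := by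
  rcases le_total (P \ g).ncard (g \ Q).ncard with hnm | hnm
  · have hex : ∃ F, F ⊆ (Q \ g) \ (P \ g) ∧
        F.ncard = (g \ Q).ncard - (P \ g).ncard ∧ F.Finite := by
      rcases (Set.finite_or_infinite (Q \ g)) with hf | hi
      · obtain ⟨F, hF, hFc⟩ := exists_subset_card_eq (s := (Q \ g) \ (P \ g))
          (n := (g \ Q).ncard - (P \ g).ncard) (by
            rw [ncard_sdiff (sdiff_subset_sdiff_left hPQ) hP]
            rcases h2 with h2 | h2
            · exact (h2 hf).elim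
            · omega)
        exact ⟨F, hF, hFc, (hf.sdiff).subset hF⟩
      · obtain ⟨F, hF, hFf, hFc⟩ := (hi.sdiff hP).exists_subset_ncard_eq
          ((g \ Q).ncard - (P \ g).ncard)
        exact ⟨F, hF, hFc, hFf⟩
    obtain ⟨F, hF, hFc, hFf⟩ := hex
    refine ⟨(g ∩ Q) ∪ P ∪ F, ⟨?_, ?_, ?_⟩, fun x hx => Or.inl (Or.inr hx), ?_⟩
    · refine (hP.union hFf).subset ?_
      intro x; simp only [mem_sdiff, mem_union, mem_inter_iff]; tauto
    · refine hQ.subset ?_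
      intro x; simp only [mem_sdiff, mem_union, mem_inter_iff]; tauto
    · have e1 : ((g ∩ Q) ∪ P ∪ F) \ g = (P \ g) ∪ F := by
        ext x
        have h := @hF x
        simp only [mem_sdiff, mem_union, mem_inter_iff] at h ⊢
        tauto
      have e2 : g \ ((g ∩ Q) ∪ P ∪ F) = g \ Q := by
        ext x
        have h := @hF x
        have h' := @hPQ x
        simp only [mem_sdiff, mem_union, mem_inter_iff] at h ⊢
        tauto
      have hd : Disjoint (P \ g) F := disjoint_right.2 (fun x hx hx' => (hF hx).2 hx')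
      rw [e1, e2, ncard_union_eq hd hP hFf]
      omega
    · exact union_subset (union_subset inter_subset_right hPQ)
        (hF.trans (sdiff_subset.trans sdiff_subset))
  · have hex : ∃ F, F ⊆ (g \ P) \ (g \ Q) ∧
        F.ncard = (P \ g).ncard - (g \ Q).ncard ∧ F.Finite := by
      rcases (Set.finite_or_infinite (g \ P)) with hf | hi
      · obtain ⟨F, hF, hFc⟩ := exists_subset_card_eq (s := (g \ P) \ (g \ Q))
          (n := (P \ g).ncard - (g \ Q).ncard) (by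
            rw [ncard_sdiff (sdiff_subset_sdiff_right hPQ) hQ]
            rcases h1 with h1 | h1
            · exact (h1 hf).elim
            · omega)
        exact ⟨F, hF, hFc, (hf.sdiff).subset hF⟩
      · obtain ⟨F, hF, hFf, hFc⟩ := (hi.sdiff hQ).exists_subset_ncard_eq
          ((P \ g).ncard - (g \ Q).ncard)
        exact ⟨F, hF, hFc, hFf⟩
    obtain ⟨F, hF, hFc, hFf⟩ := hex
    refine ⟨((g ∩ Q) ∪ P) \ F, ⟨?_, ?_, ?_⟩, ?_, ?_⟩
    · refine hP.subset ?_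
      intro x; simp only [mem_sdiff, mem_union, mem_inter_iff]; tauto
    · refine (hQ.union hFf).subset ?_
      intro x; simp only [mem_sdiff, mem_union, mem_inter_iff]; tauto
    · have e1 : (((g ∩ Q) ∪ P) \ F) \ g = P \ g := by
        ext x
        have h := @hF x
        simp only [mem_sdiff, mem_union, mem_inter_iff] at h ⊢
        tauto
      have e2 : g \ (((g ∩ Q) ∪ P) \ F) = (g \ Q) ∪ F := by
        ext x
        have h := @hF x
        have h' := @hPQ x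
        simp only [mem_sdiff, mem_union, mem_inter_iff] at h ⊢
        tauto
      have hd : Disjoint (g \ Q) F := disjoint_right.2 (fun x hx hx' => (hF hx).2 hx')
      rw [e1, e2, ncard_union_eq hd hQ hFf]
      omega
    · intro x hx
      exact ⟨Or.inr hx, fun hxF => (hF hxF).1.2 hx⟩
    · exact sdiff_subset.trans (union_subset inter_subset_right hPQ)

/-- The easy cases. -/
theorem easy {s : St} {P Q : Set W} (hPQ : P ⊆ Q) (h : ¬ Hyp s P Q) : Goal s P Q := by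
  simp only [Hyp, not_forall, not_and_or, Set.not_infinite] at h
  obtain ⟨g, hg, hfin⟩ := h
  have hB : ∀ b, Bal b g → IsB s.G b := fun b hb => ⟨g, hg, hb⟩
  have low : (g \ P).Finite → (P \ g).Infinite ∨ (g \ P).ncard ≤ (P \ g).ncard →
      Goal s P Q := by
    intro h1 h2
    obtain ⟨b, hb, _, hbP⟩ := interp (g := g) (empty_subset P) (by simp) h1
      (Or.inr (by simp)) h2
    exact Or.inl ⟨b, hB b hb, hbP⟩
  have high : (Q \ g).Finite → (g \ Q).Infinite ∨ (Q \ g).ncard ≤ (g \ Q).ncard →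
      Goal s P Q := by
    intro h1 h2
    obtain ⟨b, hb, hQb, _⟩ := interp (g := g) (subset_univ Q) h1 (by simp) h2
      (Or.inr (by simp))
    exact Or.inr (Or.inl ⟨b, hB b hb, hQb⟩)
  by_cases c1 : (g \ P).Finite ∧ ((P \ g).Infinite ∨ (g \ P).ncard ≤ (P \ g).ncard)
  · exact low c1.1 c1.2
  by_cases c2 : (Q \ g).Finite ∧ ((g \ Q).Infinite ∨ (Q \ g).ncard ≤ (g \ Q).ncard)
  · exact high c2.1 c2.2
  have hP : (P \ g).Finite := by
    rcases hfin with h | h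
    · by_contra hi
      exact c1 ⟨h, Or.inl hi⟩
    · exact h.subset (sdiff_subset_sdiff_left hPQ)
  have hQ : (g \ Q).Finite := by
    rcases hfin with h | h
    · exact h.subset (sdiff_subset_sdiff_right hPQ)
    · by_contra hi
      exact c2 ⟨h, Or.inl hi⟩
  have h1 : (g \ P).Infinite ∨ (P \ g).ncard ≤ (g \ P).ncard := by
    by_contra hc
    simp only [not_or, Set.not_infinite, not_le] at hc
    exact c1 ⟨hc.1, Or.inr (le_of_lt hc.2)⟩
  have h2 : (Q \ g).Infinite ∨ (g \ Q).ncard ≤ (Q \ g).ncard := by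
    by_contra hc
    simp only [not_or, Set.not_infinite, not_le] at hc
    exact c2 ⟨hc.1, Or.inr (le_of_lt hc.2)⟩
  obtain ⟨b, hb, hPb, hbQ⟩ := interp hPQ hP hQ h1 h2
  exact Or.inr (Or.inr ⟨b, hB b hb, hPb, hbQ⟩)

/-- The step of the recursion. -/
theorem solve (hr : Reap) {s : St} {κ : Cardinal.{0}} (hs : Inv κ s) (P Q : Set W) : ∃ t, Inv κ t ∧ Ext s t ∧
    (P ⊆ Q → Goal t P Q) ∧ (High t (sI P) ∨ High t (sI P)ᶜ) := by
  suffices h : ∃ t, Inv κ t ∧ Ext s t ∧ (P ⊆ Q → Goal t P Q) by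
    obtain ⟨t, ht, he, hg⟩ := h
    obtain ⟨u, hu, he', _, hl, _⟩ := label ht (sI P) ∅ (not_high_empty ht.toGood)
    exact ⟨u, hu, ext_trans he he', fun h => goal_ext he' (hg h), hl⟩
  by_cases hPQ : P ⊆ Q
  swap
  · exact ⟨s, hs, ext_refl s, fun h => (hPQ h).elim⟩
  by_cases hh : Hyp s P Q
  swap
  · exact ⟨s, hs, ext_refl s, fun h => easy h hh⟩
  by_cases hx : High s (sI P)ᶜ
  swap
  · obtain ⟨t, ht, he, hg⟩ := case_not_low hr hs hPQ hh hx
    exact ⟨t, ht, he, fun _ => hg⟩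
  by_cases hz : High s (sI Q)
  · obtain ⟨t1, ht1, he1, hG1, hlab, _⟩ := label hs (sO P) ∅ (not_high_empty hs.toGood)
    have hh1 : Hyp t1 P Q := fun g hg => hh g (by rwa [hG1] at hg)
    have nx : ¬ High t1 (sI P) := fun h => not_high_and_compl ht1.toGood h (high_ext he1 hx)
    obtain ⟨t, ht, he, hres⟩ := fresh hr ht1 hPQ hh1 nx
      (not_high_and_compl ht1.toGood (high_ext he1 hz)) hlab
    exact ⟨t, ht, ext_trans he1 he, fun _ => Or.inr (Or.inr hres)⟩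
  · have hh' : Hyp (dual s) Qᶜ Pᶜ := by
      rintro _ ⟨g, hg, rfl⟩
      rw [compl_sdiff_compl, compl_sdiff_compl]
      exact ⟨(hh g hg).2, (hh g hg).1⟩
    obtain ⟨t, ht, he, hg⟩ := case_not_low hr (inv_dual hs) (compl_subset_compl.2 hPQ) hh'
      (by rw [sI_compl, compl_compl]; exact hz)
    refine ⟨dual t, inv_dual ht, by simpa [dual_dual] using ext_dual he, fun _ => ?_⟩
    simpa using goal_dual hg

end Vale.Agent.P068R
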